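import Vale.Agent.P146.H803.D29b
import Vale.Agent.P146.H863.GumLC
import Vale.Agent.P146.H605.Small

/-!
# P146: the doubling inequality for the moments of the SK partition function

`E Z_{2n}^x ≤ exp (C n^{1/3} (1 + log n)) (E Z_n^x)^2`.
-/

open MeasureTheory ProbabilityTheory Finset

namespace Vale.Agent.P146.H803

open Vale.Agent.P146 Vale.Agent.P146.H501 Vale.Agent.P146.H605

/-- planting and gauge symmetry -/
lemma moment_eq (n : ℕ) (β x : ℝ) :
    ∫ g, Real.exp (x * freeEnergy n β g) ∂(disorder n) =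
      2 ^ n * Np (1 - x) (ska n β 1) (ska n β) (fun _ => 0) := by
  have hi : Integrable (fun g => Real.exp (x * freeEnergy n β g)) (disorder n) := by
    have h := (zp_dom x (ska n β) (fun _ => 0)).integrable
    refine h.congr (Filter.Eventually.of_forall fun g => ?_)
    simp only
    rw [freeEnergy_eq]
    rfl
  rw [H863.gauge_id n β (fun u => Real.exp (x * u)) hi 1]
  congr 1
  refine integral_congr_ae (Filter.Eventually.of_forall fun g => ?_)
  simp only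
  rw [H863.gibbs_eq_exp, ← Real.exp_add]
  unfold zp
  rw [← Real.exp_add, ska_sum, ← freeEnergy_eq]
  congr 1
  ring

/-! ### the two halves -/

section halves

variable (n : ℕ)

/-- the two halves of `Fin (2 n)` -/
def eh : Fin n ⊕ Fin n ≃ Fin (2 * n) := finSumFinEquiv.trans (finCongr (two_mul n).symm)

/-- the first half of a configuration -/
def hl (s : Fin (2 * n) → ℤˣ) : Fin n → ℤˣ := fun i => s (eh n (Sum.inl i))

/-- the second half of a configuration -/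
def hr (s : Fin (2 * n) → ℤˣ) : Fin n → ℤˣ := fun i => s (eh n (Sum.inr i))

/-- a configuration is the pair of its halves -/
def ec : (Fin (2 * n) → ℤˣ) ≃ (Fin n → ℤˣ) × (Fin n → ℤˣ) :=
  (Equiv.arrowCongr (eh n).symm (Equiv.refl ℤˣ)).trans (Equiv.sumArrowEquivProdArrow _ _ _)

lemma ec_apply (s : Fin (2 * n) → ℤˣ) : ec n s = (hl n s, hr n s) := rfl

lemma overlap_two (s t : Fin (2 * n) → ℤˣ) :
    overlap (2 * n) s t = (overlap n (hl n s) (hl n t) + overlap n (hr n s) (hr n t)) / 2 := by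
  unfold overlap hl hr
  rw [← (eh n).sum_comp, Fintype.sum_sum_type]
  push_cast
  by_cases hn : (n : ℝ) = 0
  · simp [hn]
  · field_simp

end halves

section inst

variable {n : ℕ} {β : ℝ}

/-- the coefficients of two independent systems -/
noncomputable def bb (n : ℕ) (β : ℝ) (s : Fin (2 * n) → ℤˣ) : Pair n ⊕ Pair n → ℝ :=
  Sum.elim (ska n β (hl n s)) (ska n β (hr n s))

lemma bb_inner (hn : 1 ≤ n) (s t : Fin (2 * n) → ℤˣ) :
    ∑ j, bb n β s j * bb n β t j =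
      ∑ i, ska (2 * n) β s i * ska (2 * n) β t i - β ^ 2 / 2 +
        β ^ 2 * n / 4 * (overlap n (hl n s) (hl n t) - overlap n (hr n s) (hr n t)) ^ 2 := by
  rw [Fintype.sum_sum_type]
  simp only [bb, Sum.elim_inl, Sum.elim_inr]
  rw [ska_inner n β hn, ska_inner n β hn, ska_inner (2 * n) β (by omega)]
  unfold ww
  rw [overlap_two]
  push_cast
  ring

lemma overlap_self (hn : 1 ≤ n) (σ : Fin n → ℤˣ) : overlap n σ σ = 1 := by
  unfold overlap
  have h : ∀ i, ((σ i : ℤ) : ℝ) * ((σ i : ℤ) : ℝ) = 1 := fun i => sp_sq σ i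
  simp_rw [h]
  have hn0 : (n : ℝ) ≠ 0 := by
    have : (0 : ℝ) < n := by exact_mod_cast hn
    exact this.ne'
  simp [hn0]

lemma overlap_abs (hn : 1 ≤ n) (σ τ : Fin n → ℤˣ) : |overlap n σ τ| ≤ 1 := by
  have hn0 : (0 : ℝ) < n := by exact_mod_cast hn
  unfold overlap
  rw [abs_div, Nat.abs_cast, div_le_one hn0]
  refine (Finset.abs_sum_le_sum_abs _ _).trans ?_
  have : ∀ i : Fin n, |((σ i : ℤ) : ℝ) * ((τ i : ℤ) : ℝ)| = 1 := fun i => by
    have h1 : |((σ i : ℤ) : ℝ)| = 1 := abs_sp σ i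
    have h2 : |((τ i : ℤ) : ℝ)| = 1 := abs_sp τ i
    rw [abs_mul, h1, h2, one_mul]
  simp [this]

/-- the magnetisation -/
noncomputable def mg (n : ℕ) (σ : Fin n → ℤˣ) : ℝ := overlap n σ 1

/-- the cost of two different magnetisations -/
noncomputable def ff (n : ℕ) (β : ℝ) (σ τ : Fin n → ℤˣ) : ℝ :=
  β ^ 2 * n / 4 * (mg n σ - mg n τ) ^ 2

/-- the cell of the magnetisation -/
noncomputable def cell (n K : ℕ) (hn : 1 ≤ n) (σ : Fin n → ℤˣ) : Fin (K + 1) :=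
  ⟨⌊(mg n σ + 1) / 2 * K⌋₊, by
    refine Nat.lt_succ_of_le ?_
    have h1 := (abs_le.1 (overlap_abs hn σ 1)).2
    refine Nat.floor_le_of_le ?_
    have h2 : (mg n σ + 1) / 2 ≤ 1 := by unfold mg; linarith
    have h3 := mul_le_mul_of_nonneg_right h2 (Nat.cast_nonneg (α := ℝ) K)
    rwa [one_mul] at h3⟩

lemma ff_le (hn : 1 ≤ n) (σ τ : Fin n → ℤˣ) : ff n β σ τ ≤ β ^ 2 * n := by
  unfold ff mg
  have h1 := abs_le.1 (overlap_abs hn σ 1)
  have h2 := abs_le.1 (overlap_abs hn τ 1)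
  have h3 : (overlap n σ 1 - overlap n τ 1) ^ 2 ≤ 4 := by nlinarith
  have h4 : 0 ≤ β ^ 2 * n / 4 := by positivity
  have h5 := mul_le_mul_of_nonneg_left h3 h4
  linarith

lemma ff_cell (hn : 1 ≤ n) {K : ℕ} (hK : 1 ≤ K) (σ τ : Fin n → ℤˣ)
    (h : cell n K hn σ = cell n K hn τ) : ff n β σ τ ≤ β ^ 2 * n / K ^ 2 := by
  have hK0 : (0 : ℝ) < K := by exact_mod_cast hK
  have h0 : ⌊(mg n σ + 1) / 2 * K⌋₊ = ⌊(mg n τ + 1) / 2 * K⌋₊ := congrArg Fin.val h
  have p1 : 0 ≤ (mg n σ + 1) / 2 * K := by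
    have := (abs_le.1 (overlap_abs hn σ 1)).1
    refine mul_nonneg ?_ hK0.le
    unfold mg
    linarith
  have p2 : 0 ≤ (mg n τ + 1) / 2 * K := by
    have := (abs_le.1 (overlap_abs hn τ 1)).1
    refine mul_nonneg ?_ hK0.le
    unfold mg
    linarith
  have a1 := Nat.floor_le p1
  have a2 := Nat.lt_floor_add_one ((mg n σ + 1) / 2 * K)
  have b1 := Nat.floor_le p2
  have b2 := Nat.lt_floor_add_one ((mg n τ + 1) / 2 * K)
  rw [h0] at a1 a2
  have h1 : (mg n σ - mg n τ) / 2 * K ≤ 1 := by linarith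
  have h2 : -1 ≤ (mg n σ - mg n τ) / 2 * K := by linarith
  have h3 : ((mg n σ - mg n τ) / 2 * K) ^ 2 ≤ 1 := by nlinarith
  unfold ff
  rw [le_div_iff₀ (by positivity)]
  have h4 : β ^ 2 * n / 4 * (mg n σ - mg n τ) ^ 2 * K ^ 2 =
      β ^ 2 * n * ((mg n σ - mg n τ) / 2 * K) ^ 2 := by ring
  rw [h4]
  have h5 : 0 ≤ β ^ 2 * n := by positivity
  nlinarith

/-- **The doubling inequality**, with the number `K` of cells free. -/
theorem double_K (hn : 1 ≤ n) {x : ℝ} (hx1 : x ≤ 1) {K : ℕ} (hK : 1 ≤ K) :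
    ∫ g, Real.exp (x * freeEnergy (2 * n) β g) ∂(disorder (2 * n)) ≤
      Real.exp (x ^ 2 * (β ^ 2 / 2) / 2) *
        (Real.exp ((1 - x) * (β ^ 2 * n / K ^ 2 + 1)) * ((K + 1 : ℕ) : ℝ) ^ (1 - x) *
          ((⌊β ^ 2 * n⌋₊ + 1 : ℕ) : ℝ) ^ (K + 1)) *
        (∫ g, Real.exp (x * freeEnergy n β g) ∂(disorder n)) ^ 2 := by
  have hp : 0 ≤ 1 - x := by linarith
  rw [moment_eq, moment_eq]
  have h1 := pkah (δ := β ^ 2 / 2) hp (ska (2 * n) β) (bb n β) 1
    (fun s => by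
      rw [bb_inner hn, overlap_self hn, overlap_self hn]
      ring)
    (fun s t => by
      rw [bb_inner hn]
      have : 0 ≤ β ^ 2 * n / 4 *
        (overlap n (hl n s) (hl n t) - overlap n (hr n s) (hr n t)) ^ 2 := by positivity
      linarith)
  have e1 : ∫ g, Real.exp (∑ j, bb n β 1 j * g j) * zp (-(1 - x)) (bb n β)
      (fun s => -(∑ j, bb n β s j * bb n β 1 j - ∑ i, ska (2 * n) β s i * ska (2 * n) β 1 i +
        β ^ 2 / 2)) g ∂(gpi (Pair n ⊕ Pair n)) =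
      ∫ z, Real.exp (∑ i, ska n β 1 i * z.1 i) * Real.exp (∑ i, ska n β 1 i * z.2 i) *
        Real.exp (-(1 - x) * Real.log (∑ s, ∑ t, Real.exp (∑ i, ska n β s i * z.1 i +
          ∑ i, ska n β t i * z.2 i - ff n β s t))) ∂((gpi (Pair n)).prod (gpi (Pair n))) := by
    rw [← gpi_sum (fun g1 g2 => Real.exp (∑ i, ska n β 1 i * g1 i) *
      Real.exp (∑ i, ska n β 1 i * g2 i) *
        Real.exp (-(1 - x) * Real.log (∑ s, ∑ t, Real.exp (∑ i, ska n β s i * g1 i +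
          ∑ i, ska n β t i * g2 i - ff n β s t))))]
    refine integral_congr_ae (Filter.Eventually.of_forall fun g => ?_)
    simp only
    congr 1
    · rw [Fintype.sum_sum_type, Real.exp_add]
      rfl
    · unfold zp
      congr 3
      unfold zz wt
      rw [← Fintype.sum_prod_type' (fun s t => Real.exp (∑ i, ska n β s i * g (Sum.inl i) +
        ∑ i, ska n β t i * g (Sum.inr i) - ff n β s t)), ← (ec n).sum_comp]
      refine Finset.sum_congr rfl fun s _ => ?_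
      rw [ec_apply, Fintype.sum_sum_type]
      beta_reduce
      rw [bb_inner hn]
      simp only [bb, Sum.elim_inl, Sum.elim_inr]
      congr 1
      unfold ff mg
      have e2 : hl n (1 : Fin (2 * n) → ℤˣ) = 1 := rfl
      have e3 : hr n (1 : Fin (2 * n) → ℤˣ) = 1 := rfl
      rw [e2, e3]
      ring
  rw [e1] at h1
  have h2 := two_le (p := 1 - x) (M := β ^ 2 * n) (d := β ^ 2 * n / K ^ 2) hp (by positivity)
    (by positivity) (ska n β 1) (ska n β) (cell n K hn) (ff n β) (ff_le hn)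
    (fun s t h => ff_cell hn hK s t h)
  have h3 := h1.trans (mul_le_mul_of_nonneg_left h2 (Real.exp_pos _).le)
  have h4 := mul_le_mul_of_nonneg_left h3 (show (0 : ℝ) ≤ 2 ^ (2 * n) by positivity)
  have e5 : (1 - (1 - x)) ^ 2 * (β ^ 2 / 2) / 2 = x ^ 2 * (β ^ 2 / 2) / 2 := by ring
  rw [e5] at h4
  unfold Np at h4 ⊢
  refine h4.trans (le_of_eq ?_)
  rw [Fintype.card_fin, pow_mul, mul_pow, ← pow_mul, ← pow_mul, mul_comm 2 n]
  ring

/-- **The doubling inequality.** -/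
theorem double_log (hn : 1 ≤ n) {x : ℝ} (hx0 : 0 ≤ x) (hx1 : x ≤ 1) :
    Real.log (∫ g, Real.exp (x * freeEnergy (2 * n) β g) ∂(disorder (2 * n))) ≤
      2 * Real.log (∫ g, Real.exp (x * freeEnergy n β g) ∂(disorder n)) +
        (2 * β ^ 2 + 7 + 3 * Real.log (β ^ 2 + 1)) * (n : ℝ) ^ (1 / 3 : ℝ) *
          (1 + Real.log n) := by
  have hn1 : (1 : ℝ) ≤ n := by exact_mod_cast hn
  have hn0 : (0 : ℝ) < n := by linarith
  set t : ℝ := (n : ℝ) ^ (1 / 3 : ℝ) with ht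
  have t1 : 1 ≤ t := Real.one_le_rpow hn1 (by norm_num)
  have t0 : 0 < t := by linarith
  have t3 : t ^ 3 = n := by
    rw [ht, ← Real.rpow_natCast, ← Real.rpow_mul hn0.le]
    norm_num
  set K : ℕ := ⌈t⌉₊ with hKd
  have hK : 1 ≤ K := Nat.one_le_ceil_iff.2 t0
  have hKt : t ≤ K := Nat.le_ceil t
  have hKu : (K : ℝ) < t + 1 := Nat.ceil_lt_add_one t0.le
  have hK0 : (0 : ℝ) < K := by exact_mod_cast hK
  have h := double_K (β := β) hn hx1 hK
  have hI : ∀ m : ℕ, 0 < ∫ g, Real.exp (x * freeEnergy m β g) ∂(disorder m) := fun m => by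
    rw [moment_eq]
    exact mul_pos (by positivity) (Np_pos _ _ _ _)
  have hM : (0 : ℝ) < ((⌊β ^ 2 * n⌋₊ + 1 : ℕ) : ℝ) := by positivity
  have hKK : (0 : ℝ) < ((K + 1 : ℕ) : ℝ) := by positivity
  have h2 := Real.log_le_log (hI (2 * n)) h
  rw [Real.log_mul (by positivity) (pow_pos (hI n) 2).ne', Real.log_mul (by positivity)
    (by positivity), Real.log_mul (by positivity) (by positivity), Real.log_mul (by positivity)
    (by positivity), Real.log_exp, Real.log_exp, Real.log_pow, Real.log_pow,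
    Real.log_rpow hKK] at h2
  -- the numbers
  have hL0 : 0 ≤ Real.log n := Real.log_nonneg hn1
  have hB0 : 0 ≤ Real.log (β ^ 2 + 1) := Real.log_nonneg (by nlinarith [sq_nonneg β])
  have a1 : x ^ 2 * (β ^ 2 / 2) / 2 ≤ β ^ 2 / 4 := by
    have : x ^ 2 ≤ 1 := by nlinarith
    nlinarith [sq_nonneg β]
  have a2 : β ^ 2 * n / K ^ 2 ≤ β ^ 2 * t := by
    rw [div_le_iff₀ (by positivity)]
    have h5 : t ^ 2 ≤ (K : ℝ) ^ 2 := pow_le_pow_left₀ t0.le hKt 2
    have h6 : (n : ℝ) ≤ t * K ^ 2 := by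
      rw [← t3]
      calc t ^ 3 = t * t ^ 2 := by ring
        _ ≤ t * K ^ 2 := mul_le_mul_of_nonneg_left h5 t0.le
    calc β ^ 2 * n ≤ β ^ 2 * (t * K ^ 2) := mul_le_mul_of_nonneg_left h6 (sq_nonneg β)
      _ = β ^ 2 * t * K ^ 2 := by ring
  have a3 : (1 - x) * (β ^ 2 * n / K ^ 2 + 1) ≤ β ^ 2 * t + 1 := by
    have h5 : 0 ≤ β ^ 2 * n / K ^ 2 + 1 := by positivity
    have h6 : (1 - x) * (β ^ 2 * n / K ^ 2 + 1) ≤ 1 * (β ^ 2 * n / K ^ 2 + 1) :=
      mul_le_mul_of_nonneg_right (by linarith) h5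
    linarith
  have a4 : (1 - x) * Real.log ((K + 1 : ℕ) : ℝ) ≤ t + 1 := by
    have h5 : 0 ≤ Real.log ((K + 1 : ℕ) : ℝ) := Real.log_nonneg (by push_cast; linarith)
    have h6 : Real.log ((K + 1 : ℕ) : ℝ) ≤ ((K + 1 : ℕ) : ℝ) - 1 := Real.log_le_sub_one_of_pos hKK
    have h7 : (1 - x) * Real.log ((K + 1 : ℕ) : ℝ) ≤ 1 * Real.log ((K + 1 : ℕ) : ℝ) :=
      mul_le_mul_of_nonneg_right (by linarith) h5
    push_cast at h6 h7 ⊢
    linarith
  have a5 : Real.log ((⌊β ^ 2 * n⌋₊ + 1 : ℕ) : ℝ) ≤ Real.log (β ^ 2 + 1) + Real.log n := by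
    rw [← Real.log_mul (by positivity) hn0.ne']
    refine Real.log_le_log hM ?_
    have h5 := Nat.floor_le (show 0 ≤ β ^ 2 * n by positivity)
    push_cast
    nlinarith
  have a6 : 0 ≤ Real.log ((⌊β ^ 2 * n⌋₊ + 1 : ℕ) : ℝ) := Real.log_nonneg (by
    push_cast
    have : (0 : ℝ) ≤ (⌊β ^ 2 * n⌋₊ : ℝ) := Nat.cast_nonneg _
    linarith)
  have a7 : ((K + 1 : ℕ) : ℝ) * Real.log ((⌊β ^ 2 * n⌋₊ + 1 : ℕ) : ℝ) ≤
      3 * t * (Real.log (β ^ 2 + 1) + Real.log n) := by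
    have h5 : ((K + 1 : ℕ) : ℝ) ≤ 3 * t := by push_cast; linarith
    exact mul_le_mul h5 a5 a6 (by positivity)
  have h3 : Real.log (∫ g, Real.exp (x * freeEnergy (2 * n) β g) ∂(disorder (2 * n))) ≤
      β ^ 2 / 4 + (β ^ 2 * t + 1 + (t + 1) + 3 * t * (Real.log (β ^ 2 + 1) + Real.log n)) +
      2 * Real.log (∫ g, Real.exp (x * freeEnergy n β g) ∂(disorder n)) := by
    push_cast at h2 a4 a7 ⊢
    linarith
  have h4 : β ^ 2 / 4 + (β ^ 2 * t + 1 + (t + 1) + 3 * t * (Real.log (β ^ 2 + 1) +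
      Real.log n)) ≤
      (2 * β ^ 2 + 7 + 3 * Real.log (β ^ 2 + 1)) * t * (1 + Real.log n) := by
    have q1 : 0 ≤ β ^ 2 := sq_nonneg β
    have q2 : 0 ≤ t * Real.log n := by positivity
    have q3 : 0 ≤ β ^ 2 * (t - 1) := mul_nonneg q1 (by linarith)
    have q4 : 0 ≤ β ^ 2 * (t * Real.log n) := mul_nonneg q1 q2
    have q5 : 0 ≤ Real.log (β ^ 2 + 1) * (t * Real.log n) := mul_nonneg hB0 q2
    have q6 : (2 * β ^ 2 + 7 + 3 * Real.log (β ^ 2 + 1)) * t * (1 + Real.log n) =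
        2 * β ^ 2 * t + 2 * (β ^ 2 * (t * Real.log n)) + 7 * t + 7 * (t * Real.log n) +
        3 * t * Real.log (β ^ 2 + 1) + 3 * (Real.log (β ^ 2 + 1) * (t * Real.log n)) := by ring
    rw [q6]
    nlinarith
  linarith

end inst

end Vale.Agent.P146.H803
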