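import Vale.Agent.P146.H501.Interp
import Vale.Agent.P146.H863.PLG

/-!
# P146: comparison of negative moments of Gaussian partition functions (second source)

`kah`: Kahane's inequality for `z ^ (-p)` with a constant covariance defect `δ`; `cm`:
translation; `pkah`: the planted comparison.
-/

open MeasureTheory ProbabilityTheory Finset

namespace Vale.Agent.P146.H803

open Vale.Agent.P146 Vale.Agent.P146.H501

/-! ### marginals of `gpi` -/

section marg

variable {ι κ : Type*} [Fintype ι] [Fintype κ]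

lemma gpi_sum (f : (ι → ℝ) → (κ → ℝ) → ℝ) :
    ∫ g, f (fun i => g (Sum.inl i)) (fun j => g (Sum.inr j)) ∂(gpi (ι ⊕ κ)) =
      ∫ z, f z.1 z.2 ∂((gpi ι).prod (gpi κ)) := by
  have hmp := measurePreserving_sumPiEquivProdPi (fun _ : ι ⊕ κ => gaussianReal 0 1)
  exact hmp.integral_comp' (fun z : (ι → ℝ) × (κ → ℝ) => f z.1 z.2)

lemma gpi_inl (f : (ι → ℝ) → ℝ) :
    ∫ g, f (fun i => g (Sum.inl i)) ∂(gpi (ι ⊕ κ)) = ∫ g, f g ∂(gpi ι) := by
  rw [gpi_sum (fun g _ => f g), integral_fun_fst]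
  simp

lemma gpi_inr (f : (κ → ℝ) → ℝ) :
    ∫ g, f (fun i => g (Sum.inr i)) ∂(gpi (ι ⊕ κ)) = ∫ g, f g ∂(gpi κ) := by
  rw [gpi_sum (fun _ g => f g), integral_fun_snd]
  simp

end marg

/-! ### Kahane -/

section kah

variable {ι κ S : Type*} [Fintype ι] [Fintype κ] [Fintype S] [Nonempty S]

omit [Nonempty S] in
/-- the square of a mean -/
lemma sum_gav_sq (a : S → ι → ℝ) (c : S → ℝ) (f : S → κ → ℝ) (g : ι → ℝ) :
    ∑ j, gav a c (fun s => f s j) g * gav a c (fun s => f s j) g =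
      gav a c (fun s => gav a c (fun t => ∑ j, f s j * f t j) g) g := by
  have e1 : ∀ s, gav a c (fun t => ∑ j, f s j * f t j) g =
      ∑ j, f s j * gav a c (fun t => f t j) g := by
    intro s
    rw [gav_sum]
    exact Finset.sum_congr rfl fun j _ => gav_const_mul a c _ _ g
  simp_rw [e1]
  rw [gav_sum]
  refine Finset.sum_congr rfl fun j _ => ?_
  have e2 : (fun s => f s j * gav a c (fun t => f t j) g) =
      fun s => gav a c (fun t => f t j) g * f s j := by
    funext s; ring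
  rw [e2, gav_const_mul]

/-- the path -/
noncomputable def pa (a : S → ι → ℝ) (b : S → κ → ℝ) (θ : ℝ) (s : S) : ι ⊕ κ → ℝ :=
  Sum.elim (fun i => Real.cos θ * a s i) (fun j => Real.sin θ * b s j)

/-- its derivative -/
noncomputable def pa' (a : S → ι → ℝ) (b : S → κ → ℝ) (θ : ℝ) (s : S) : ι ⊕ κ → ℝ :=
  Sum.elim (fun i => -Real.sin θ * a s i) (fun j => Real.cos θ * b s j)

omit [Fintype ι] [Fintype κ] [Fintype S] [Nonempty S] in
lemma hasDerivAt_pa (a : S → ι → ℝ) (b : S → κ → ℝ) (θ : ℝ) (s : S) (i : ι ⊕ κ) :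
    HasDerivAt (fun θ => pa a b θ s i) (pa' a b θ s i) θ := by
  rcases i with i | j
  · simp only [pa, pa', Sum.elim_inl]
    exact (Real.hasDerivAt_cos θ).mul_const _
  · simp only [pa, pa', Sum.elim_inr]
    exact (Real.hasDerivAt_sin θ).mul_const _

/-- **Kahane's inequality for `z ^ (-p)`**, with a constant defect `δ` of the covariance. -/
theorem kah {p δ : ℝ} (hp : 0 ≤ p) (a : S → ι → ℝ) (b : S → κ → ℝ) (c : S → ℝ)
    (hd : ∀ s, ∑ j, b s j * b s j = ∑ i, a s i * a s i - δ)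
    (hle : ∀ s t, ∑ i, a s i * a t i - δ ≤ ∑ j, b s j * b t j) :
    ∫ g, zp (-p) a c g ∂(gpi ι) ≤ Real.exp (p ^ 2 * δ / 2) * ∫ g, zp (-p) b c g ∂(gpi κ) := by
  classical
  set A : ℝ := ∑ s, ∑ i, |a s i| + ∑ s, ∑ j, |b s j| with hA
  have ha : ∀ s i, |a s i| ≤ A := fun s i => by
    have h1 : |a s i| ≤ ∑ i, |a s i| := Finset.single_le_sum (f := fun i => |a s i|)
      (fun i _ => abs_nonneg _) (Finset.mem_univ i)
    have h2 : ∑ i, |a s i| ≤ ∑ s, ∑ i, |a s i| :=
      Finset.single_le_sum (f := fun s => ∑ i, |a s i|)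
        (fun i _ => Finset.sum_nonneg fun _ _ => abs_nonneg _) (Finset.mem_univ s)
    have h3 : 0 ≤ ∑ s, ∑ j, |b s j| :=
      Finset.sum_nonneg fun _ _ => Finset.sum_nonneg fun _ _ => abs_nonneg _
    linarith
  have hb : ∀ s j, |b s j| ≤ A := fun s j => by
    have h1 : |b s j| ≤ ∑ j, |b s j| := Finset.single_le_sum (f := fun j => |b s j|)
      (fun i _ => abs_nonneg _) (Finset.mem_univ j)
    have h2 : ∑ j, |b s j| ≤ ∑ s, ∑ j, |b s j| :=
      Finset.single_le_sum (f := fun s => ∑ j, |b s j|)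
        (fun i _ => Finset.sum_nonneg fun _ _ => abs_nonneg _) (Finset.mem_univ s)
    have h3 : 0 ≤ ∑ s, ∑ j, |a s j| :=
      Finset.sum_nonneg fun _ _ => Finset.sum_nonneg fun _ _ => abs_nonneg _
    linarith
  have h1 : ∀ u v : ℝ, |u| ≤ 1 → |v| ≤ A → |u * v| ≤ A := fun u v hu hv => by
    rw [abs_mul]
    calc |u| * |v| ≤ 1 * |v| := mul_le_mul_of_nonneg_right hu (abs_nonneg v)
      _ ≤ A := by rw [one_mul]; exact hv
  have hpa : ∀ θ s i, |pa a b θ s i| ≤ A := fun θ s i => by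
    rcases i with i | j
    · exact h1 _ _ (Real.abs_cos_le_one θ) (ha s i)
    · exact h1 _ _ (Real.abs_sin_le_one θ) (hb s j)
  have hpa' : ∀ θ s i, |pa' a b θ s i| ≤ A := fun θ s i => by
    rcases i with i | j
    · exact h1 _ _ (by rw [abs_neg]; exact Real.abs_sin_le_one θ) (ha s i)
    · exact h1 _ _ (Real.abs_cos_le_one θ) (hb s j)
  set C : ℝ := ∑ s, |c s| with hC
  have hc : ∀ s, |c s| ≤ C := fun s => Finset.single_le_sum (f := fun s => |c s|)
    (fun i _ => abs_nonneg _) (Finset.mem_univ s)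
  have hder := fun θ => hasDerivAt_moment (-p) (a := pa a b) (a' := pa' a b)
    (c := fun _ => c) (c' := fun _ _ => 0) (A := A) (A' := A) (C := C) (C' := 0)
    (fun θ s i => hasDerivAt_pa a b θ s i) (fun θ s => hasDerivAt_const θ (c s)) hpa hpa'
    (fun _ s => hc s) (fun _ _ => by simp) θ
  -- the bracket
  have hbr : ∀ θ, 0 ≤ θ → θ ≤ Real.pi / 2 → ∀ g : ι ⊕ κ → ℝ,
      br (-p) (pa a b θ) c (pa' a b θ) (fun _ => 0) g ≤
        p * δ * (Real.sin θ * Real.cos θ) := by
    intro θ h0 h2 g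
    have hs : 0 ≤ Real.sin θ := Real.sin_nonneg_of_nonneg_of_le_pi h0 (by linarith [Real.pi_pos])
    have hco : 0 ≤ Real.cos θ := Real.cos_nonneg_of_mem_Icc ⟨by linarith [Real.pi_pos], h2⟩
    unfold br
    have e1 : (fun s => ∑ i, pa' a b θ s i * pa a b θ s i + (fun _ : S => (0 : ℝ)) s) =
        fun _ => -(Real.sin θ * Real.cos θ) * δ := by
      funext s
      simp only [Fintype.sum_sum_type, pa, pa', Sum.elim_inl, Sum.elim_inr, add_zero]
      have e2 : ∀ i, -Real.sin θ * a s i * (Real.cos θ * a s i) =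
          -(Real.sin θ * Real.cos θ) * (a s i * a s i) := fun i => by ring
      have e3 : ∀ j, Real.cos θ * b s j * (Real.sin θ * b s j) =
          (Real.sin θ * Real.cos θ) * (b s j * b s j) := fun j => by ring
      simp_rw [e2, e3]
      rw [← Finset.mul_sum, ← Finset.mul_sum, hd s]
      ring
    rw [e1, gav_const]
    have e4 : ∑ i, gav (pa a b θ) c (fun s => pa' a b θ s i) g *
        gav (pa a b θ) c (fun s => pa a b θ s i) g =
        (Real.sin θ * Real.cos θ) *
          (∑ j, gav (pa a b θ) c (fun s => b s j) g * gav (pa a b θ) c (fun s => b s j) g -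
            ∑ i, gav (pa a b θ) c (fun s => a s i) g *
              gav (pa a b θ) c (fun s => a s i) g) := by
      have f1 : ∀ i, gav (pa a b θ) c (fun s => pa' a b θ s (Sum.inl i)) g =
          -Real.sin θ * gav (pa a b θ) c (fun s => a s i) g := fun i =>
        gav_const_mul (pa a b θ) c (-Real.sin θ) (fun s => a s i) g
      have f2 : ∀ i, gav (pa a b θ) c (fun s => pa a b θ s (Sum.inl i)) g =
          Real.cos θ * gav (pa a b θ) c (fun s => a s i) g := fun i =>
        gav_const_mul (pa a b θ) c (Real.cos θ) (fun s => a s i) g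
      have f3 : ∀ j, gav (pa a b θ) c (fun s => pa' a b θ s (Sum.inr j)) g =
          Real.cos θ * gav (pa a b θ) c (fun s => b s j) g := fun j =>
        gav_const_mul (pa a b θ) c (Real.cos θ) (fun s => b s j) g
      have f4 : ∀ j, gav (pa a b θ) c (fun s => pa a b θ s (Sum.inr j)) g =
          Real.sin θ * gav (pa a b θ) c (fun s => b s j) g := fun j =>
        gav_const_mul (pa a b θ) c (Real.sin θ) (fun s => b s j) g
      rw [Fintype.sum_sum_type]
      simp_rw [f1, f2, f3, f4]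
      rw [mul_sub, Finset.mul_sum, Finset.mul_sum]
      have e5 : ∀ i, -Real.sin θ * gav (pa a b θ) c (fun s => a s i) g *
          (Real.cos θ * gav (pa a b θ) c (fun s => a s i) g) =
          -(Real.sin θ * Real.cos θ * (gav (pa a b θ) c (fun s => a s i) g *
            gav (pa a b θ) c (fun s => a s i) g)) := fun i => by ring
      have e6 : ∀ j, Real.cos θ * gav (pa a b θ) c (fun s => b s j) g *
          (Real.sin θ * gav (pa a b θ) c (fun s => b s j) g) =
          Real.sin θ * Real.cos θ * (gav (pa a b θ) c (fun s => b s j) g *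
            gav (pa a b θ) c (fun s => b s j) g) := fun j => by ring
      simp_rw [e5, e6]
      rw [Finset.sum_neg_distrib]
      ring
    rw [e4, sum_gav_sq, sum_gav_sq]
    have h3 : gav (pa a b θ) c (fun s => gav (pa a b θ) c (fun t => ∑ i, a s i * a t i) g) g - δ ≤
        gav (pa a b θ) c (fun s => gav (pa a b θ) c (fun t => ∑ j, b s j * b t j) g) g := by
      have h4 : gav (pa a b θ) c (fun s => gav (pa a b θ) c (fun t => ∑ i, a s i * a t i) g - δ) g ≤
          gav (pa a b θ) c (fun s => gav (pa a b θ) c (fun t => ∑ j, b s j * b t j) g) g := by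
        refine gav_mono _ _ (fun s => ?_) g
        have h5 := gav_mono (pa a b θ) c (fun t => hle s t) g
        rw [gav_sub, gav_const] at h5
        exact h5
      rw [gav_sub, gav_const] at h4
      exact h4
    have hsc : 0 ≤ Real.sin θ * Real.cos θ := mul_nonneg hs hco
    have h6 := mul_le_mul_of_nonneg_left h3 (mul_nonneg (by linarith : 0 ≤ 1 + p) hsc)
    nlinarith
  -- the monotone quantity
  set Ψ : ℝ → ℝ := fun θ => ∫ g, zp (-p) (pa a b θ) c g ∂(gpi (ι ⊕ κ)) with hΨ
  have hd2 : ∀ θ, HasDerivAt (fun θ => Real.exp (p ^ 2 * δ / 2 * Real.sin θ ^ 2) * Ψ θ)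
      (Real.exp (p ^ 2 * δ / 2 * Real.sin θ ^ 2) *
        (p ^ 2 * δ * (Real.sin θ * Real.cos θ)) * Ψ θ +
        Real.exp (p ^ 2 * δ / 2 * Real.sin θ ^ 2) *
        (-p * ∫ g, zp (-p) (pa a b θ) c g *
          br (-p) (pa a b θ) c (pa' a b θ) (fun _ => 0) g ∂(gpi (ι ⊕ κ)))) θ := by
    intro θ
    have h3 := (((Real.hasDerivAt_sin θ).fun_pow 2).const_mul (p ^ 2 * δ / 2)).exp
    refine (h3.mul (hder θ)).congr_deriv ?_
    simp only [Nat.cast_ofNat, Nat.add_one_sub_one, pow_one]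
    ring
  have hmono : MonotoneOn (fun θ => Real.exp (p ^ 2 * δ / 2 * Real.sin θ ^ 2) * Ψ θ)
      (Set.Icc 0 (Real.pi / 2)) := by
    refine monotoneOn_of_hasDerivWithinAt_nonneg (convex_Icc _ _)
      (fun θ _ => (hd2 θ).continuousAt.continuousWithinAt)
      (fun θ _ => (hd2 θ).hasDerivWithinAt) ?_
    intro θ hθ
    rw [interior_Icc] at hθ
    have h3 : ∫ g, zp (-p) (pa a b θ) c g *
          br (-p) (pa a b θ) c (pa' a b θ) (fun _ => 0) g ∂(gpi (ι ⊕ κ)) ≤
        ∫ g, p * δ * (Real.sin θ * Real.cos θ) * zp (-p) (pa a b θ) c g ∂(gpi (ι ⊕ κ)) := by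
      refine int_mono ((zp_dom _ _ _).mul (br_dom _ _ _ _ _)) ((zp_dom _ _ _).const_mul _)
        fun g => ?_
      rw [mul_comm]
      exact mul_le_mul_of_nonneg_right (hbr θ hθ.1.le hθ.2.le g) (zp_pos _ _ _ _).le
    rw [integral_const_mul] at h3
    have h4 : Ψ θ = ∫ g, zp (-p) (pa a b θ) c g ∂(gpi (ι ⊕ κ)) := rfl
    rw [← h4] at h3
    have h5 := mul_le_mul_of_nonneg_left h3 hp
    have h6 := mul_le_mul_of_nonneg_left h5 (Real.exp_pos (p ^ 2 * δ / 2 * Real.sin θ ^ 2)).le
    nlinarith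
  have h7 := hmono (Set.left_mem_Icc.2 (by positivity)) (Set.right_mem_Icc.2 (by positivity))
    (by positivity : (0 : ℝ) ≤ Real.pi / 2)
  simp only [Real.sin_zero, Real.sin_pi_div_two] at h7
  have e0 : Ψ 0 = ∫ g, zp (-p) a c g ∂(gpi ι) := by
    rw [hΨ, ← gpi_inl (κ := κ) (fun g => zp (-p) a c g)]
    refine integral_congr_ae (Filter.Eventually.of_forall fun g => ?_)
    simp only [zp, zz, wt, pa, Fintype.sum_sum_type, Sum.elim_inl, Sum.elim_inr,
      Real.cos_zero, Real.sin_zero, one_mul, zero_mul, Finset.sum_const_zero, add_zero]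
  have e1 : Ψ (Real.pi / 2) = ∫ g, zp (-p) b c g ∂(gpi κ) := by
    rw [hΨ, ← gpi_inr (ι := ι) (fun g => zp (-p) b c g)]
    refine integral_congr_ae (Filter.Eventually.of_forall fun g => ?_)
    simp only [zp, zz, wt, pa, Fintype.sum_sum_type, Sum.elim_inl, Sum.elim_inr,
      Real.cos_pi_div_two, Real.sin_pi_div_two, one_mul, zero_mul, Finset.sum_const_zero,
      zero_add]
  rw [e0, e1] at h7
  simpa using h7

end kah

end Vale.Agent.P146.H803
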