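import Vale.Agent.P146.H803.D29a
import Vale.Agent.P146.H425.Gauss

/-!
# P146: the transfer inequality for two samples (second source)
-/

open MeasureTheory ProbabilityTheory Finset

namespace Vale.Agent.P146.H803

open Vale.Agent.P146 Vale.Agent.P146.H501

section gen

variable {ι κ S : Type*} [Fintype ι] [Fintype κ] [Fintype S] [Nonempty S]

omit [Nonempty S] in
lemma zz_shift (a : S → ι → ℝ) (c : S → ℝ) (a0 g : ι → ℝ) :
    zz a c (g + a0) = zz a (fun s => c s + ∑ i, a s i * a0 i) g := by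
  unfold zz wt
  refine Finset.sum_congr rfl fun s _ => ?_
  congr 1
  simp only [Pi.add_apply, mul_add, Finset.sum_add_distrib]
  ring

omit [Nonempty S] in
/-- Cameron-Martin -/
lemma cm (a0 : ι → ℝ) (κ' : ℝ) (a : S → ι → ℝ) (c : S → ℝ) :
    ∫ g, Real.exp (∑ i, a0 i * g i) * zp κ' a c g ∂(gpi ι) =
      Real.exp ((∑ i, a0 i * a0 i) / 2) *
        ∫ g, zp κ' a (fun s => c s + ∑ i, a s i * a0 i) g ∂(gpi ι) := by
  have h := H425.integral_shift (-a0) (fun g => zp κ' a c g)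
  have e1 : (fun g : ι → ℝ => zp κ' a c (g - -a0)) =
      fun g => zp κ' a (fun s => c s + ∑ i, a s i * a0 i) g := by
    funext g
    unfold zp
    rw [sub_neg_eq_add, zz_shift]
  have e2 : ∀ g : ι → ℝ, Real.exp (-(∑ i, (-a0) i * g i) - (∑ i, (-a0) i ^ 2) / 2) *
      zp κ' a c g = Real.exp (-((∑ i, a0 i * a0 i) / 2)) *
        (Real.exp (∑ i, a0 i * g i) * zp κ' a c g) := by
    intro g
    rw [← mul_assoc, ← Real.exp_add]
    congr 2
    simp only [Pi.neg_apply, neg_mul, Finset.sum_neg_distrib, neg_neg, even_two, Even.neg_pow]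
    have : ∀ i, a0 i ^ 2 = a0 i * a0 i := fun i => sq _
    simp_rw [this]
    ring
  rw [e1] at h
  simp_rw [e2] at h
  rw [integral_const_mul] at h
  unfold gpi
  rw [h, ← mul_assoc, ← Real.exp_add]
  simp

omit [Nonempty S] in
lemma zz_const (a : S → ι → ℝ) (c : S → ℝ) (t : ℝ) (g : ι → ℝ) :
    zz a (fun s => c s + t) g = Real.exp t * zz a c g := by
  unfold zz wt
  rw [Finset.mul_sum]
  refine Finset.sum_congr rfl fun s _ => ?_
  rw [← Real.exp_add]
  congr 1
  ring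

lemma zp_const (κ' : ℝ) (a : S → ι → ℝ) (c : S → ℝ) (t : ℝ) (g : ι → ℝ) :
    zp κ' a (fun s => c s + t) g = Real.exp (κ' * t) * zp κ' a c g := by
  unfold zp
  rw [zz_const, Real.log_mul (Real.exp_pos _).ne' (zz_pos a c g).ne', Real.log_exp,
    mul_add, Real.exp_add]

/-- **The planted comparison.** -/
theorem pkah {p δ : ℝ} (hp : 0 ≤ p) (a : S → ι → ℝ) (b : S → κ → ℝ) (s0 : S)
    (hd : ∀ s, ∑ j, b s j * b s j = ∑ i, a s i * a s i - δ)
    (hle : ∀ s t, ∑ i, a s i * a t i - δ ≤ ∑ j, b s j * b t j) :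
    ∫ g, Real.exp (∑ i, a s0 i * g i) * zp (-p) a (fun _ => 0) g ∂(gpi ι) ≤
      Real.exp ((1 - p) ^ 2 * δ / 2) * ∫ g, Real.exp (∑ j, b s0 j * g j) *
        zp (-p) b (fun s => -(∑ j, b s j * b s0 j - ∑ i, a s i * a s0 i + δ)) g ∂(gpi κ) := by
  rw [cm, cm]
  have h1 := kah hp a b (fun s => (0 : ℝ) + ∑ i, a s i * a s0 i) hd hle
  have h2 := mul_le_mul_of_nonneg_left h1 (Real.exp_pos ((∑ i, a s0 i * a s0 i) / 2)).le
  refine h2.trans (le_of_eq ?_)
  have e1 : (fun s => (0 : ℝ) + ∑ i, a s i * a s0 i) = fun s =>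
      (-(∑ j, b s j * b s0 j - ∑ i, a s i * a s0 i + δ) + ∑ j, b s j * b s0 j) + δ := by
    funext s; ring
  rw [e1]
  simp_rw [zp_const]
  rw [integral_const_mul, hd s0]
  simp only [← mul_assoc, ← Real.exp_add]
  congr 2
  ring

/-! ### log-concavity in the weights -/

/-- the planted negative moment -/
noncomputable def Np (p : ℝ) (a0 : ι → ℝ) (a : S → ι → ℝ) (ψ : S → ℝ) : ℝ :=
  ∫ g, Real.exp (∑ i, a0 i * g i) * zp (-p) a ψ g ∂(gpi ι)

/-- `log zz` is jointly convex in the weights and the disorder -/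
lemma log_zz_convex (a : S → ι → ℝ) : ConvexOn ℝ Set.univ
    (fun q : (S → ℝ) × (ι → ℝ) => Real.log (zz a q.1 q.2)) := by
  refine ⟨convex_univ, fun x _ y _ r t hr ht hrt => ?_⟩
  simp only [smul_eq_mul]
  set Fx := Real.log (zz a x.1 x.2) with hFx
  set Fy := Real.log (zz a y.1 y.2) with hFy
  have zx := zz_pos a x.1 x.2
  have zy := zz_pos a y.1 y.2
  have h1 : ∀ s, wt a (r • x + t • y).1 (r • x + t • y).2 s * Real.exp (-(r * Fx + t * Fy)) ≤
      r * (wt a x.1 x.2 s / zz a x.1 x.2) + t * (wt a y.1 y.2 s / zz a y.1 y.2) := by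
    intro s
    have h := convexOn_exp.2 (Set.mem_univ (∑ i, a s i * x.2 i + x.1 s - Fx))
      (Set.mem_univ (∑ i, a s i * y.2 i + y.1 s - Fy)) hr ht hrt
    simp only [smul_eq_mul] at h
    have ex : Real.exp (∑ i, a s i * x.2 i + x.1 s - Fx) = wt a x.1 x.2 s / zz a x.1 x.2 := by
      rw [Real.exp_sub, hFx, Real.exp_log zx]
      rfl
    have ey : Real.exp (∑ i, a s i * y.2 i + y.1 s - Fy) = wt a y.1 y.2 s / zz a y.1 y.2 := by
      rw [Real.exp_sub, hFy, Real.exp_log zy]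
      rfl
    rw [ex, ey] at h
    refine le_trans (le_of_eq ?_) h
    unfold wt
    rw [← Real.exp_add]
    congr 1
    simp only [Prod.snd_add, Prod.smul_snd, Prod.fst_add, Prod.smul_fst, Pi.add_apply,
      Pi.smul_apply, smul_eq_mul]
    have e1 : ∑ i, a s i * (r * x.2 i + t * y.2 i) =
        r * ∑ i, a s i * x.2 i + t * ∑ i, a s i * y.2 i := by
      rw [Finset.mul_sum, Finset.mul_sum, ← Finset.sum_add_distrib]
      exact Finset.sum_congr rfl fun i _ => by ring
    rw [e1]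
    ring
  have h2 : zz a (r • x + t • y).1 (r • x + t • y).2 * Real.exp (-(r * Fx + t * Fy)) ≤ 1 := by
    have e3 : zz a (r • x + t • y).1 (r • x + t • y).2 * Real.exp (-(r * Fx + t * Fy)) =
        ∑ s, wt a (r • x + t • y).1 (r • x + t • y).2 s * Real.exp (-(r * Fx + t * Fy)) := by
      unfold zz
      rw [Finset.sum_mul]
    rw [e3]
    refine (Finset.sum_le_sum fun s _ => h1 s).trans (le_of_eq ?_)
    rw [Finset.sum_add_distrib, ← Finset.mul_sum, ← Finset.mul_sum, ← Finset.sum_div,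
      ← Finset.sum_div]
    have ex : (∑ s, wt a x.1 x.2 s) / zz a x.1 x.2 = 1 := div_self zx.ne'
    have ey : (∑ s, wt a y.1 y.2 s) / zz a y.1 y.2 = 1 := div_self zy.ne'
    rw [ex, ey]
    linarith
  have zr := zz_pos a (r • x + t • y).1 (r • x + t • y).2
  rw [← Real.exp_log zr, ← Real.exp_add] at h2
  have h3 := Real.exp_le_one_iff.1 h2
  linarith

lemma Np_dom (p : ℝ) (a0 : ι → ℝ) (a : S → ι → ℝ) (ψ : S → ℝ) :
    Dom (fun g => Real.exp (∑ i, a0 i * g i) * zp (-p) a ψ g) := by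
  refine Dom.mul ?_ (zp_dom _ _ _)
  have h := zp_dom (S := Unit) 1 (fun _ => a0) (fun _ => 0)
  refine h.congr fun g => ?_
  simp [zp, zz, wt]

lemma Np_pos (p : ℝ) (a0 : ι → ℝ) (a : S → ι → ℝ) (ψ : S → ℝ) : 0 < Np p a0 a ψ := by
  have e : Np p a0 a ψ = ∫ g, Real.exp (∑ i, a0 i * g i + -p * Real.log (zz a ψ g))
      ∂(gpi ι) := by
    unfold Np zp
    simp_rw [Real.exp_add]
  have h := (Np_dom p a0 a ψ).integrable
  rw [e]
  refine integral_exp_pos (f := fun g => ∑ i, a0 i * g i + -p * Real.log (zz a ψ g)) ?_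
  refine h.congr (Filter.Eventually.of_forall fun g => ?_)
  simp only
  rw [Real.exp_add]
  rfl

/-- **log-concavity at the midpoint** -/
theorem Np_mid {p : ℝ} (hp : 0 ≤ p) (a0 : ι → ℝ) (a : S → ι → ℝ) (ψ : S → ℝ) :
    Np p a0 a ψ * Np p a0 a (fun s => -ψ s) ≤ Np p a0 a (fun _ => 0) ^ 2 := by
  have hc := H863.PL.gauss (κ := ι) (E := S → ℝ)
    (fun ψ g => ∑ i, a0 i * g i + -p * Real.log (zz a ψ g))
    (by
      refine ConcaveOn.add ?_ ?_
      · refine ⟨convex_univ, fun x _ y _ r t hr ht hrt => le_of_eq ?_⟩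
        simp only [smul_eq_mul, Prod.snd_add, Prod.smul_snd, Pi.add_apply, Pi.smul_apply]
        rw [Finset.mul_sum, Finset.mul_sum, ← Finset.sum_add_distrib]
        exact Finset.sum_congr rfl fun i _ => by ring
      · have h := (log_zz_convex a).neg
        have h2 := h.smul hp
        refine h2.congr fun q _ => ?_
        simp only [Pi.neg_apply, smul_eq_mul]
        ring)
    (fun ψ => by
      have := (log_zz_cont a ψ).measurable
      fun_prop)
    (fun ψ => by
      set B := (∑ i, |a0 i|) + p * ∑ s, ∑ i, |a s i| with hB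
      refine ⟨p * (∑ s, |ψ s| + Real.log (Fintype.card S)), B, fun g => ?_⟩
      have h1 := log_zz_bound a ψ g
      have h2 : ∑ i, a0 i * g i ≤ (∑ i, |a0 i|) * ∑ i, |g i| := by
        rw [Finset.sum_mul]
        refine Finset.sum_le_sum fun i _ => ?_
        have h3 : |g i| ≤ ∑ i, |g i| := Finset.single_le_sum (f := fun i => |g i|)
          (fun i _ => abs_nonneg _) (Finset.mem_univ i)
        calc a0 i * g i ≤ |a0 i * g i| := le_abs_self _
          _ = |a0 i| * |g i| := abs_mul _ _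
          _ ≤ |a0 i| * ∑ i, |g i| := mul_le_mul_of_nonneg_left h3 (abs_nonneg _)
      have h4 : -p * Real.log (zz a ψ g) ≤ p * |Real.log (zz a ψ g)| := by
        have := neg_abs_le (Real.log (zz a ψ g))
        nlinarith
      have h5 := mul_le_mul_of_nonneg_left h1 hp
      have h6 := add_le_add h2 (h4.trans h5)
      refine h6.trans (le_of_eq ?_)
      rw [hB]
      ring)
  have e : ∀ ψ : S → ℝ, ∫ g, Real.exp (∑ i, a0 i * g i + -p * Real.log (zz a ψ g))
      ∂(Measure.pi fun _ : ι => gaussianReal 0 1) = Np p a0 a ψ := by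
    intro ψ
    unfold Np zp gpi
    simp_rw [Real.exp_add]
  have h := hc.2 (Set.mem_univ ψ) (Set.mem_univ (-ψ)) (show (0 : ℝ) ≤ 1 / 2 by norm_num)
    (show (0 : ℝ) ≤ 1 / 2 by norm_num) (by norm_num)
  simp only [e, smul_eq_mul] at h
  have e0 : (1 / 2 : ℝ) • ψ + (1 / 2 : ℝ) • -ψ = fun _ => 0 := by
    funext s
    simp
  rw [e0] at h
  have p1 := Np_pos p a0 a ψ
  have p2 := Np_pos p a0 a (-ψ)
  have p0 := Np_pos p a0 a (fun _ => 0)
  have h2 : Real.log (Np p a0 a ψ * Np p a0 a (-ψ)) ≤ Real.log (Np p a0 a (fun _ => 0) ^ 2) := by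
    rw [Real.log_mul p1.ne' p2.ne', Real.log_pow]
    push_cast
    linarith
  exact (Real.log_le_log_iff (mul_pos p1 p2) (pow_pos p0 2)).1 h2

end gen

/-! ### two samples -/

section two

variable {ι X J : Type*} [Fintype ι] [Fintype X] [Nonempty X] [Fintype J] [DecidableEq J]

/-- the pointwise bound -/
theorem two_pt {p M d : ℝ} (hp : 0 ≤ p) (hd0 : 0 ≤ d) (hM : 0 ≤ M) (a : X → ι → ℝ) (c : X → J)
    (f : X → X → ℝ) (hfM : ∀ s t, f s t ≤ M) (hfd : ∀ s t, c s = c t → f s t ≤ d)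
    (g1 g2 : ι → ℝ) :
    Real.exp (-p * Real.log (∑ s, ∑ t, Real.exp (∑ i, a s i * g1 i + ∑ i, a t i * g2 i -
      f s t))) ≤
    Real.exp (p * (d + 1)) * (Fintype.card J : ℝ) ^ p *
      ∑ φ : J → Fin (⌊M⌋₊ + 1), zp (-p) a (fun s => -((φ (c s) : ℕ) : ℝ)) g1 *
        zp (-p) a (fun s => ((φ (c s) : ℕ) : ℝ)) g2 := by
  set w1 : X → ℝ := fun s => Real.exp (∑ i, a s i * g1 i) with hw1
  set w2 : X → ℝ := fun t => Real.exp (∑ i, a t i * g2 i) with hw2
  have w1p : ∀ s, 0 < w1 s := fun s => Real.exp_pos _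
  have w2p : ∀ s, 0 < w2 s := fun s => Real.exp_pos _
  set Z2 : ℝ := ∑ t, w2 t with hZ2
  have Z2p : 0 < Z2 := Finset.sum_pos (fun t _ => w2p t) Finset.univ_nonempty
  set P : J → ℝ := fun j => (∑ t, if c t = j then w2 t else 0) / Z2 with hP
  have hP1 : ∀ j, P j ≤ 1 := fun j => by
    rw [hP]
    simp only
    rw [div_le_one Z2p]
    refine Finset.sum_le_sum fun t _ => ?_
    split_ifs
    · exact le_rfl
    · exact (w2p t).le
  set Q : J → ℝ := fun j => max (Real.exp (-M)) (P j) with hQ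
  have Q0 : ∀ j, 0 < Q j := fun j => lt_of_lt_of_le (Real.exp_pos _) (le_max_left _ _)
  have Q1 : ∀ j, Q j ≤ 1 := fun j => max_le (by
    rw [Real.exp_le_one_iff]; linarith) (hP1 j)
  have Ql : ∀ j, 0 ≤ -Real.log (Q j) := fun j => by
    have := Real.log_nonpos (Q0 j).le (Q1 j)
    linarith
  have Qu : ∀ j, -Real.log (Q j) ≤ M := fun j => by
    have h1 : Real.exp (-M) ≤ Q j := le_max_left _ _
    have h2 := Real.log_le_log (Real.exp_pos _) h1
    rw [Real.log_exp] at h2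
    linarith
  set φ : J → Fin (⌊M⌋₊ + 1) := fun j => ⟨⌊-Real.log (Q j)⌋₊,
    Nat.lt_succ_of_le (Nat.floor_le_floor (Qu j))⟩ with hφ
  have φv : ∀ j, ((φ j : ℕ) : ℝ) ≤ -Real.log (Q j) := fun j => Nat.floor_le (Ql j)
  have φu : ∀ j, -Real.log (Q j) < ((φ j : ℕ) : ℝ) + 1 := fun j => Nat.lt_floor_add_one _
  -- lower bound of the double sum
  have hrow : ∀ s, Real.exp (-(d + 1)) * (Z2 * Real.exp (-((φ (c s) : ℕ) : ℝ))) ≤
      ∑ t, w2 t * Real.exp (-f s t) := by
    intro s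
    have h1 : Real.exp (-d) * (Real.exp (-M) * Z2) ≤ ∑ t, w2 t * Real.exp (-f s t) := by
      have h2 : Real.exp (-M) * Z2 ≤ ∑ t, w2 t * Real.exp (-f s t) := by
        rw [hZ2, Finset.mul_sum]
        refine Finset.sum_le_sum fun t _ => ?_
        rw [mul_comm]
        exact mul_le_mul_of_nonneg_left (Real.exp_le_exp.2 (neg_le_neg (hfM s t))) (w2p t).le
      refine le_trans ?_ h2
      have h3 : 0 ≤ Real.exp (-M) * Z2 := by positivity
      have h4 : Real.exp (-d) ≤ 1 := by rw [Real.exp_le_one_iff]; linarith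
      calc Real.exp (-d) * (Real.exp (-M) * Z2) ≤ 1 * (Real.exp (-M) * Z2) :=
            mul_le_mul_of_nonneg_right h4 h3
        _ = _ := one_mul _
    have h2 : Real.exp (-d) * (P (c s) * Z2) ≤ ∑ t, w2 t * Real.exp (-f s t) := by
      have e : P (c s) * Z2 = ∑ t, if c t = c s then w2 t else 0 := by
        rw [hP]
        exact div_mul_cancel₀ _ Z2p.ne'
      rw [e, Finset.mul_sum]
      refine Finset.sum_le_sum fun t _ => ?_
      split_ifs with hc
      · rw [mul_comm]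
        exact mul_le_mul_of_nonneg_left (Real.exp_le_exp.2 (neg_le_neg (hfd s t hc.symm)))
          (w2p t).le
      · rw [mul_zero]
        exact mul_nonneg (w2p t).le (Real.exp_pos _).le
    have h3 : Real.exp (-d) * (Q (c s) * Z2) ≤ ∑ t, w2 t * Real.exp (-f s t) := by
      rcases le_total (Real.exp (-M)) (P (c s)) with h | h
      · have : Q (c s) = P (c s) := max_eq_right h
        rw [this]; exact h2
      · have : Q (c s) = Real.exp (-M) := max_eq_left h
        rw [this]; exact h1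
    refine le_trans ?_ h3
    have h4 : Real.exp (-(((φ (c s) : ℕ) : ℝ) + 1)) ≤ Q (c s) := by
      have h5 := Real.exp_le_exp.2 (neg_le_neg (φu (c s)).le)
      rwa [neg_neg, Real.exp_log (Q0 _)] at h5
    have e : Real.exp (-(d + 1)) * (Z2 * Real.exp (-((φ (c s) : ℕ) : ℝ))) =
        Real.exp (-d) * (Real.exp (-(((φ (c s) : ℕ) : ℝ) + 1)) * Z2) := by
      have e1 : Real.exp (-(d + 1)) = Real.exp (-d) * Real.exp (-1) := by
        rw [← Real.exp_add]; congr 1; ring
      have e2 : Real.exp (-(((φ (c s) : ℕ) : ℝ) + 1)) =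
          Real.exp (-((φ (c s) : ℕ) : ℝ)) * Real.exp (-1) := by
        rw [← Real.exp_add]; congr 1; ring
      rw [e1, e2]
      ring
    rw [e]
    exact mul_le_mul_of_nonneg_left (mul_le_mul_of_nonneg_right h4 Z2p.le) (Real.exp_pos _).le
  set T : ℝ := ∑ s, ∑ t, Real.exp (∑ i, a s i * g1 i + ∑ i, a t i * g2 i - f s t) with hT
  have hT1 : T = ∑ s, w1 s * ∑ t, w2 t * Real.exp (-f s t) := by
    rw [hT]
    refine Finset.sum_congr rfl fun s _ => ?_
    rw [Finset.mul_sum]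
    refine Finset.sum_congr rfl fun t _ => ?_
    rw [hw1, hw2]
    simp only
    rw [← Real.exp_add, ← Real.exp_add]
    congr 1
    ring
  set z1 : ℝ := zz a (fun s => -((φ (c s) : ℕ) : ℝ)) g1 with hz1
  set z2 : ℝ := zz a (fun s => ((φ (c s) : ℕ) : ℝ)) g2 with hz2
  have z1p : 0 < z1 := zz_pos _ _ _
  have z2p : 0 < z2 := zz_pos _ _ _
  have hlow : Real.exp (-(d + 1)) * (Z2 * z1) ≤ T := by
    rw [hT1]
    have e : Real.exp (-(d + 1)) * (Z2 * z1) =
        ∑ s, w1 s * (Real.exp (-(d + 1)) * (Z2 * Real.exp (-((φ (c s) : ℕ) : ℝ)))) := by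
      rw [hz1]
      unfold zz wt
      rw [Finset.mul_sum, Finset.mul_sum]
      refine Finset.sum_congr rfl fun s _ => ?_
      rw [hw1, Real.exp_add]
      ring
    rw [e]
    exact Finset.sum_le_sum fun s _ => mul_le_mul_of_nonneg_left (hrow s) (w1p s).le
  -- upper bound of `z2`
  have hup : z2 ≤ Fintype.card J * Z2 := by
    have e : z2 = ∑ j : J, (P j * Z2) * Real.exp ((φ j : ℕ) : ℝ) := by
      have e1 : ∀ j, P j * Z2 = ∑ t, if c t = j then w2 t else 0 := fun j =>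
        div_mul_cancel₀ _ Z2p.ne'
      simp_rw [e1, Finset.sum_mul]
      rw [Finset.sum_comm, hz2]
      unfold zz wt
      refine Finset.sum_congr rfl fun t _ => ?_
      rw [Finset.sum_eq_single (c t)]
      · rw [if_pos rfl, hw2, Real.exp_add]
      · intro j _ hj
        rw [if_neg (Ne.symm hj), zero_mul]
      · intro h
        exact absurd (Finset.mem_univ _) h
    rw [e]
    have h1 : ∀ j, (P j * Z2) * Real.exp ((φ j : ℕ) : ℝ) ≤ Z2 := by
      intro j
      have h2 : Real.exp ((φ j : ℕ) : ℝ) ≤ (Q j)⁻¹ := by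
        have h3 := Real.exp_le_exp.2 (φv j)
        rwa [Real.exp_neg, Real.exp_log (Q0 j)] at h3
      have hP0 : 0 ≤ P j := by
        rw [hP]
        refine div_nonneg (Finset.sum_nonneg fun t _ => ?_) Z2p.le
        split_ifs
        · exact (w2p t).le
        · exact le_rfl
      have h4 : P j * (Q j)⁻¹ ≤ 1 := by
        rw [← div_eq_mul_inv, div_le_one (Q0 j)]
        exact le_max_right _ _
      calc (P j * Z2) * Real.exp ((φ j : ℕ) : ℝ) ≤ (P j * Z2) * (Q j)⁻¹ :=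
            mul_le_mul_of_nonneg_left h2 (mul_nonneg hP0 Z2p.le)
        _ = (P j * (Q j)⁻¹) * Z2 := by ring
        _ ≤ 1 * Z2 := mul_le_mul_of_nonneg_right h4 Z2p.le
        _ = Z2 := one_mul _
    refine (Finset.sum_le_sum fun j _ => h1 j).trans (le_of_eq ?_)
    simp
  -- conclusion
  obtain ⟨x0⟩ := (inferInstance : Nonempty X)
  have hJ : (0 : ℝ) < Fintype.card J := by
    have : 0 < Fintype.card J := Fintype.card_pos_iff.2 ⟨c x0⟩
    exact_mod_cast this
  have hlog : -p * Real.log T ≤ p * (d + 1) + p * Real.log (Fintype.card J) +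
      -p * Real.log z1 + -p * Real.log z2 := by
    have h1 : Real.log (Real.exp (-(d + 1)) * (Z2 * z1)) ≤ Real.log T :=
      Real.log_le_log (by positivity) hlow
    rw [Real.log_mul (Real.exp_pos _).ne' (by positivity), Real.log_exp,
      Real.log_mul Z2p.ne' z1p.ne'] at h1
    have h2 : Real.log z2 ≤ Real.log (Fintype.card J * Z2) := Real.log_le_log z2p hup
    rw [Real.log_mul hJ.ne' Z2p.ne'] at h2
    have h3 : -(d + 1) + Real.log z2 - Real.log (Fintype.card J) + Real.log z1 ≤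
        Real.log T := by linarith
    have h4 := mul_le_mul_of_nonneg_left h3 hp
    linarith
  have hone : Real.exp (-p * Real.log T) ≤ Real.exp (p * (d + 1)) * (Fintype.card J : ℝ) ^ p *
      (zp (-p) a (fun s => -((φ (c s) : ℕ) : ℝ)) g1 *
        zp (-p) a (fun s => ((φ (c s) : ℕ) : ℝ)) g2) := by
    refine (Real.exp_le_exp.2 hlog).trans (le_of_eq ?_)
    rw [Real.exp_add, Real.exp_add, Real.exp_add, Real.rpow_def_of_pos hJ]
    unfold zp
    rw [mul_comm (Real.log (Fintype.card J : ℝ)) p]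
    ring
  refine hone.trans (mul_le_mul_of_nonneg_left ?_ (by positivity))
  exact Finset.single_le_sum (f := fun φ : J → Fin (⌊M⌋₊ + 1) =>
      zp (-p) a (fun s => -((φ (c s) : ℕ) : ℝ)) g1 * zp (-p) a (fun s => ((φ (c s) : ℕ) : ℝ)) g2)
    (fun φ _ => mul_nonneg (zp_pos _ _ _ _).le (zp_pos _ _ _ _).le) (Finset.mem_univ φ)

/-- **The transfer bound for two samples.** -/
theorem two_le {p M d : ℝ} (hp : 0 ≤ p) (hd0 : 0 ≤ d) (hM : 0 ≤ M) (a0 : ι → ℝ)
    (a : X → ι → ℝ) (c : X → J) (f : X → X → ℝ) (hfM : ∀ s t, f s t ≤ M)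
    (hfd : ∀ s t, c s = c t → f s t ≤ d) :
    ∫ z, Real.exp (∑ i, a0 i * z.1 i) * Real.exp (∑ i, a0 i * z.2 i) *
        Real.exp (-p * Real.log (∑ s, ∑ t, Real.exp (∑ i, a s i * z.1 i + ∑ i, a t i * z.2 i -
          f s t))) ∂((gpi ι).prod (gpi ι)) ≤
      Real.exp (p * (d + 1)) * (Fintype.card J : ℝ) ^ p *
        ((⌊M⌋₊ + 1 : ℕ) : ℝ) ^ (Fintype.card J) * Np p a0 a (fun _ => 0) ^ 2 := by
  classical
  set C : ℝ := Real.exp (p * (d + 1)) * (Fintype.card J : ℝ) ^ p with hC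
  have hC0 : 0 ≤ C := by positivity
  set A : (J → Fin (⌊M⌋₊ + 1)) → (ι → ℝ) → ℝ := fun φ g =>
    Real.exp (∑ i, a0 i * g i) * zp (-p) a (fun s => -((φ (c s) : ℕ) : ℝ)) g with hA
  set B : (J → Fin (⌊M⌋₊ + 1)) → (ι → ℝ) → ℝ := fun φ g =>
    Real.exp (∑ i, a0 i * g i) * zp (-p) a (fun s => ((φ (c s) : ℕ) : ℝ)) g with hB
  have iA : ∀ φ, Integrable (A φ) (gpi ι) := fun φ => (Np_dom p a0 a _).integrable
  have iB : ∀ φ, Integrable (B φ) (gpi ι) := fun φ => (Np_dom p a0 a _).integrable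
  have h1 : ∫ z, Real.exp (∑ i, a0 i * z.1 i) * Real.exp (∑ i, a0 i * z.2 i) *
        Real.exp (-p * Real.log (∑ s, ∑ t, Real.exp (∑ i, a s i * z.1 i + ∑ i, a t i * z.2 i -
          f s t))) ∂((gpi ι).prod (gpi ι)) ≤
      ∫ z, C * ∑ φ, A φ z.1 * B φ z.2 ∂((gpi ι).prod (gpi ι)) := by
    refine integral_mono_of_nonneg (Filter.Eventually.of_forall fun z => ?_) ?_
      (Filter.Eventually.of_forall fun z => ?_)
    · simp only [Pi.zero_apply]
      positivity
    · exact (integrable_finsetSum _ fun φ _ => (iA φ).mul_prod (iB φ)).const_mul C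
    · simp only
      have h2 := two_pt hp hd0 hM a c f hfM hfd z.1 z.2
      have h3 := mul_le_mul_of_nonneg_left h2 (show 0 ≤ Real.exp (∑ i, a0 i * z.1 i) *
        Real.exp (∑ i, a0 i * z.2 i) by positivity)
      refine h3.trans (le_of_eq ?_)
      rw [hA, hB, hC]
      simp only
      rw [mul_left_comm, Finset.mul_sum]
      congr 1
      refine Finset.sum_congr rfl fun φ _ => ?_
      ring
  refine h1.trans ?_
  rw [integral_const_mul, integral_finsetSum _ fun φ _ => (iA φ).mul_prod (iB φ)]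
  have h2 : ∀ φ, ∫ z, A φ z.1 * B φ z.2 ∂((gpi ι).prod (gpi ι)) ≤
      Np p a0 a (fun _ => 0) ^ 2 := by
    intro φ
    rw [integral_prod_mul (A φ) (B φ)]
    have h3 := Np_mid hp a0 a (fun s => ((φ (c s) : ℕ) : ℝ))
    rw [mul_comm] at h3
    exact h3
  have h3 : ∑ φ, ∫ z, A φ z.1 * B φ z.2 ∂((gpi ι).prod (gpi ι)) ≤
      ((⌊M⌋₊ + 1 : ℕ) : ℝ) ^ (Fintype.card J) * Np p a0 a (fun _ => 0) ^ 2 := by
    refine (Finset.sum_le_sum fun φ _ => h2 φ).trans (le_of_eq ?_)
    simp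
  refine (mul_le_mul_of_nonneg_left h3 hC0).trans (le_of_eq ?_)
  ring

end two

end Vale.Agent.P146.H803
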